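import Crest.Agent.H5.ZD.T6
import Crest.Agent.Lead.ZT4
import Crest.Agent.H6.ZT2
import Crest.Agent.H3.ZD.T4f
import Crest.Agent.H9.ZC7

/-! Everything except the van Kampen task `T3`. -/

namespace Crest.Agent.H5.ZD

open Crest.Agent.H9.ZD

theorem t1 : T1 := Crest.Agent.Lead.ZT.t1_of Crest.Agent.H6.ZT.t1a Crest.Agent.Lead.ZT.t1b

theorem s0267_of (h3 : T3) :
    ∃ (G : Type) (_ : Group G), Group.IsFinitelyPresented G ∧ (∀ g : G, IsOfFinOrder g → g = 1) ∧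
      Crest.Topology.HasFiniteClassifyingComplex G 2 ∧
      ∃ a b : MonoidAlgebra (ZMod 2) G, a ≠ 0 ∧ b ≠ 0 ∧ a * b = 0 :=
  s0267 t1 h3 Crest.Agent.H3.ZD.t4' t5

theorem s0274_of (h3 : T3) :
    ∃ (G : Type) (_ : Group G), Group.IsFinitelyPresented G ∧ (∀ g : G, IsOfFinOrder g → g = 1) ∧
      Crest.Topology.HasFiniteClassifyingComplex G 2 ∧
      ∃ a b : MonoidAlgebra (ZMod 2) G, a * b = 1 ∧ b * a ≠ 1 :=
  s0274 t1 h3 Crest.Agent.H3.ZD.t4' t5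

end Crest.Agent.H5.ZD
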