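import Crest.Agent.Lead.ZT0

/-! Task T2: a combinatorially aspherical triangle presentation is torsion-free. -/

namespace Crest.Agent.H5.ZD

open Crest.Agent.H9.ZD Crest.Agent.Lead.ZT

variable {S R : Type} {rel : R → S × S × S}

theorem der_left {w w' ζ} (h : Der rel w w' ζ) (x : List (S × Bool)) :
    Der rel (x ++ w) (x ++ w') (ζ.mapDomain fun y => (ev rel x * y.1, y.2)) := by
  induction h with
  | refl w => simpa using Der.refl (rel := rel) (x ++ w)
  | ins u v d => simpa using Der.ins (rel := rel) (x ++ u) v d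
  | tri u v r =>
    have := Der.tri (rel := rel) (x ++ u) v r
    simpa [Finsupp.mapDomain_single, ev_append] using this
  | symm _ ih =>
    have := Der.symm ih
    rwa [← Finsupp.mapDomain.addMonoidHom_apply, ← map_neg,
      Finsupp.mapDomain.addMonoidHom_apply] at this
  | trans _ _ ih ih' => simpa [Finsupp.mapDomain_add] using Der.trans ih ih'

theorem ev_false (s : S) : ev rel [(s, false)] = (PresentedGroup.of s)⁻¹ := by
  have := ev_invRev (rel := rel) [(s, true)]
  simpa [FreeGroup.invRev, ev_of] using this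

/-- the integral of a `1`-cochain along a word -/
noncomputable def W (ω : Grp rel → S → ℤ) : Grp rel → List (S × Bool) → ℤ
  | _, [] => 0
  | g, (s, true) :: w => ω g s + W ω (g * PresentedGroup.of s) w
  | g, (s, false) :: w => -ω (g * (PresentedGroup.of s)⁻¹) s + W ω (g * (PresentedGroup.of s)⁻¹) w

theorem W_append (ω : Grp rel → S → ℤ) (u v : List (S × Bool)) :
    ∀ g, W ω g (u ++ v) = W ω g u + W ω (g * ev rel u) v := by
  induction u with
  | nil => intro g; simp [W, ev_nil]
  | cons d u ih =>
    intro g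
    obtain ⟨s, b⟩ := d
    have e : ev rel ((s, b) :: u) = ev rel [(s, b)] * ev rel u := ev_append [(s, b)] u
    cases b
    · simp only [List.cons_append, W, ih, e, ev_false, mul_assoc, add_assoc]
    · simp only [List.cons_append, W, ih, e, ev_of, mul_assoc, add_assoc]

/-- coboundary -/
noncomputable def cob (ω : Grp rel → S → ℤ) (x : Grp rel × R) : ℤ :=
  ω x.1 (rel x.2).1 + ω (x.1 * PresentedGroup.of (rel x.2).1) (rel x.2).2.1 - ω x.1 (rel x.2).2.2

theorem W_der (ω : Grp rel → S → ℤ) {w w' ζ} (h : Der rel w w' ζ) :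
    W ω 1 w - W ω 1 w' = Finsupp.linearCombination ℤ (cob ω) ζ := by
  induction h with
  | refl w => simp
  | ins u v d =>
    obtain ⟨s, b⟩ := d
    cases b <;> simp [W_append, W, inv]
  | tri u v r =>
    simp only [W_append, W, Finsupp.linearCombination_single, cob, one_mul, one_smul, mul_assoc,
      of_rel]
    ring
  | symm _ ih => rw [map_neg, ← ih]; ring
  | trans _ _ ih ih' => rw [map_add, ← ih, ← ih']; ring

theorem W_shift (ω : Grp rel → S → ℤ) (h : Grp rel) (hω : ∀ g s, ω (h * g) s = ω g s)
    (w : List (S × Bool)) : ∀ g, W ω (h * g) w = W ω g w := by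
  induction w with
  | nil => intro g; rfl
  | cons d w ih =>
    intro g
    obtain ⟨s, b⟩ := d
    cases b <;> simp only [W, mul_assoc, hω, ih]

theorem W_cast {n : ℕ} (ω : Grp rel → S → ℤ) (κ : Grp rel → ZMod n)
    (hω : ∀ g s, (ω g s : ZMod n) = κ (g * PresentedGroup.of s) - κ g)
    (w : List (S × Bool)) : ∀ g, (W ω g w : ZMod n) = κ (g * ev rel w) - κ g := by
  induction w with
  | nil => intro g; simp [W, ev_nil]
  | cons d w ih =>
    intro g
    obtain ⟨s, b⟩ := d
    have e : ev rel ((s, b) :: w) = ev rel [(s, b)] * ev rel w := ev_append [(s, b)] w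
    cases b
    · simp only [W, e, ev_false, Int.cast_add, Int.cast_neg, hω, ih, mul_assoc, inv_mul_cancel,
        mul_one]
      ring
    · simp only [W, e, ev_of, Int.cast_add, hω, ih, mul_assoc]
      ring

theorem exists_kappa {G : Type} [Group G] (h : G) :
    ∃ κ : G → ZMod (orderOf h), ∀ g, κ (h * g) = κ g + 1 := by
  classical
  have key : ∀ g : G, ∃ k : ℤ,
      h ^ k = g * ((Quotient.mk (QuotientGroup.rightRel (Subgroup.zpowers h)) g).out)⁻¹ := by
    intro g
    have := Quotient.mk_out (s := QuotientGroup.rightRel (Subgroup.zpowers h)) g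
    rw [QuotientGroup.rightRel_apply] at this
    exact Subgroup.mem_zpowers_iff.1 this
  choose k hk using key
  refine ⟨fun g => (k g : ZMod (orderOf h)), fun g => ?_⟩
  have e : Quotient.mk (QuotientGroup.rightRel (Subgroup.zpowers h)) (h * g) =
      Quotient.mk (QuotientGroup.rightRel (Subgroup.zpowers h)) g := by
    apply Quotient.sound
    change (QuotientGroup.rightRel (Subgroup.zpowers h)) (h * g) g
    rw [QuotientGroup.rightRel_apply]
    simp
  have h1 : h ^ k (h * g) = h ^ (k g + 1) := by
    rw [hk, e, add_comm, zpow_add, zpow_one, hk, mul_assoc]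
  rw [zpow_eq_zpow_iff_modEq] at h1
  have := (ZMod.intCast_eq_intCast_iff _ _ _).2 h1
  simpa using this

theorem t2 : T2 := by
  classical
  intro S R rel hA h hh
  obtain ⟨w, hw⟩ := ev_surj (rel := rel) h
  have hn : 0 < orderOf h := hh.orderOf_pos
  set n := orderOf h with hndef
  have : NeZero n := ⟨hn.ne'⟩
  obtain ⟨κ, hκ⟩ := exists_kappa h
  let ω : Grp rel → S → ℤ := fun g s => ((κ (g * PresentedGroup.of s) - κ g).val : ℤ)
  have hω : ∀ g s, (ω g s : ZMod n) = κ (g * PresentedGroup.of s) - κ g := by
    intro g s; simp [ω]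
  have hinv : ∀ g s, ω (h * g) s = ω g s := by
    intro g s; simp [ω, mul_assoc, hκ]
  have hpow : ∀ m : ℕ, ev rel (List.replicate m w).flatten = h ^ m ∧
      W ω 1 (List.replicate m w).flatten = m * W ω 1 w ∧
      w ++ (List.replicate m w).flatten = (List.replicate m w).flatten ++ w := by
    intro m
    induction m with
    | zero => simp [ev_nil, W]
    | succ m ih =>
      obtain ⟨h1, h2, h3⟩ := ih
      refine ⟨?_, ?_, ?_⟩
      · rw [List.replicate_succ, List.flatten_cons, ev_append, h1, hw, pow_succ']
      · rw [List.replicate_succ, List.flatten_cons, W_append, one_mul, hw]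
        have := W_shift ω h hinv (List.replicate m w).flatten 1
        rw [mul_one] at this
        rw [this, h2]; push_cast; ring
      · rw [List.replicate_succ, List.flatten_cons, List.append_assoc, ← h3]
  obtain ⟨h1, h2, h3⟩ := hpow n
  obtain ⟨ζ, hζ⟩ := der_of_ev_eq (rel := rel) (w := (List.replicate n w).flatten) (w' := [])
    (by rw [h1, ev_nil, hndef, pow_orderOf_eq_one])
  have hz : (ζ.mapDomain fun y => (h * y.1, y.2)) = ζ := by
    have a := der_left hζ w
    have b := Der.right hζ w
    rw [h3, hw, List.append_nil] at a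
    rw [List.nil_append] at b
    exact der_unique hA a b
  let φ : ZMod n → ℤ := fun j =>
    Finsupp.linearCombination ℤ (fun x : Grp rel × R => if κ x.1 = j then cob ω x else 0) ζ
  have hφ : ∀ j, φ (j + 1) = φ j := by
    intro j
    simp only [φ]
    conv_lhs => rw [← hz, Finsupp.linearCombination_mapDomain]
    congr 2
    ext x
    simp [hκ, cob, hinv, mul_assoc]
  have hφ0 : ∀ j, φ j = φ 0 := by
    have : ∀ m : ℕ, φ (m : ZMod n) = φ 0 := by
      intro m
      induction m with
      | zero => simp
      | succ m ih => rw [Nat.cast_succ, hφ, ih]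
    intro j
    rw [← this j.val, ZMod.natCast_zmod_val]
  have hsum : ∑ j, φ j = Finsupp.linearCombination ℤ (cob ω) ζ := by
    simp only [φ, Finsupp.linearCombination_apply, Finsupp.sum]
    rw [Finset.sum_comm]
    refine Finset.sum_congr rfl fun x _ => ?_
    simp
  have hW := W_der ω hζ
  rw [h2, ← hsum] at hW
  simp only [hφ0, W, sub_zero, Finset.sum_const, Finset.card_univ, ZMod.card, nsmul_eq_mul] at hW
  have hW' : W ω 1 w = φ 0 := mul_left_cancel₀ (by exact_mod_cast hn.ne') hW
  have hc : ∀ x, (cob ω x : ZMod n) = 0 := by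
    intro x
    simp only [cob, Int.cast_sub, Int.cast_add, hω, mul_assoc, of_rel]
    ring
  have h0 : (φ 0 : ZMod n) = 0 := by
    simp only [φ, Finsupp.linearCombination_apply, Finsupp.sum, Int.cast_sum]
    refine Finset.sum_eq_zero fun x _ => ?_
    split_ifs <;> simp [hc]
  have h4 := W_cast ω κ hω w 1
  have h5 := hκ 1
  rw [hW', h0, one_mul, hw] at h4
  rw [mul_one] at h5
  rw [h5, add_sub_cancel_left] at h4
  have h6 : n ∣ 1 := by
    have : ((1 : ℕ) : ZMod n) = 0 := by simpa using h4.symm
    exact (ZMod.natCast_eq_zero_iff _ _).1 this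
  exact orderOf_eq_one_iff.1 (Nat.dvd_one.1 h6)

end Crest.Agent.H5.ZD
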