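import Crest.Agent.H5.ZD.T6a
import Crest.Agent.H5.ZD.T2

/-! Task T6: assembly of the zero-divisor / direct finiteness examples from the tasks. -/

namespace Crest.Agent.H5.ZD

open Finset Crest.Agent.H6.SC Crest.Agent.H9.ZD

/-- types of connectors -/
abbrev Con : Type := Fin 2077 ⊕ (Fin 7 ⊕ Unit)

/-- words of the simplex code -/
def word (j : Fin 7) : Finset (Fin 7) := {j + 2, j + 4, j + 5, j + 6}

/-- links of connectors -/
def fl : Con → Finset Pt
  | .inl k => {.inr (k, true), .inr (k, false)}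
  | .inr (.inl j) => (word j).map ⟨.inl, Sum.inl_injective⟩
  | .inr (.inr _) => univ.map ⟨.inl, Sum.inl_injective⟩

/-- multiplicity of lines -/
def mult (t : ℕ) (y : Bool) : ℕ := if y then 4 * t + 1 else 4 * t

/-- multiplicity of connectors -/
def cntC (t : ℕ) (y : Bool) : Con → ℕ
  | .inl _ => 65 * mult t y
  | .inr (.inl _) => if y then 65 * t + 16 else 65 * t
  | .inr (.inr _) => if y then 1 else 0

theorem word_card (i : Fin 7) : (univ.filter fun j => i ∈ word j).card = 4 := by
  revert i; decide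

theorem fl_sum (t : ℕ) (y : Bool) (p : Pt) :
    ∑ c ∈ univ.filter fun c => p ∈ fl c, cntC t y c = 65 * mult t y := by
  rw [sum_filter, Fintype.sum_sum_type, Fintype.sum_sum_type]
  rcases p with i | ⟨k, b⟩
  · have := word_card i
    simp only [fl, cntC, mem_insert, mem_singleton, reduceCtorEq, or_self, if_false, sum_const_zero,
      zero_add, mem_map, Function.Embedding.coeFn_mk, Sum.inl.injEq, exists_eq_right, mem_univ,
      if_true, sum_const, card_univ, Fintype.card_unit, one_smul]
    rw [← sum_filter, sum_const, this]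
    cases y <;> simp [mult] <;> ring
  · have : ∀ k' : Fin 2077, (Sum.inr (k, b) : Pt) ∈ fl (.inl k') ↔ k' = k := by
      intro k'
      cases b <;> simp [fl, eq_comm]
    simp only [this]
    simp [fl, cntC]

theorem word_inter (j j' : Fin 7) : Even (word j ∩ word j').card := by
  revert j j'; decide

theorem word_even (j : Fin 7) : Even (word j).card := by
  revert j; decide

theorem fl_inter (c c' : Con) :
    Odd (fl c ∩ fl c').card ↔ c = .inr (.inr ()) ∧ c' = .inr (.inr ()) := by
  have e1 : ∀ (k : Fin 2077) (s : Finset (Fin 7)),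
      fl (.inl k) ∩ s.map ⟨.inl, Sum.inl_injective⟩ = ∅ := by
    intro k s
    ext p
    rcases p with i | q <;> simp [fl]
  rcases c with k | j | u <;> rcases c' with k' | j' | u'
  · by_cases h : k = k'
    · subst h
      simp [fl]
    · have : fl (.inl k) ∩ fl (.inl k') = ∅ := by
        ext p
        simp only [fl, mem_inter, mem_insert, mem_singleton, notMem_empty, iff_false]
        rintro ⟨rfl | rfl, h2 | h2⟩ <;> simp [h] at h2
      simp [this]
  · rw [fl.eq_2, e1]; simp
  · rw [fl.eq_3, e1]; simp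
  · rw [fl.eq_2, inter_comm, e1]; simp
  · simp only [fl, ← map_inter, card_map]
    simpa using word_inter j j'
  · simp only [fl, ← map_inter, card_map, inter_univ]
    simpa using word_even j
  · rw [fl.eq_3, inter_comm, e1]; simp
  · simp only [fl, ← map_inter, card_map, univ_inter]
    simpa using word_even j'
  · simp only [fl, inter_self, card_map, card_univ, Fintype.card_fin, and_self, iff_true]
    decide

theorem exists_adm0 (A B : Type) [Fintype A] [Fintype B] :
    ∃ adm : Finset ((A ⊕ (B × Bool)) × (A ⊕ (B × Bool))),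
      adm.card ≤ Fintype.card A * Fintype.card A + Fintype.card B * 2 ∧
      (∀ a b, (.inl a, .inl b) ∈ adm) ∧ ∀ k b, (.inr (k, b), .inr (k, !b)) ∈ adm := by
  classical
  refine ⟨(univ.image fun x : A × A => (.inl x.1, .inl x.2)) ∪
    univ.image fun x : B × Bool => (.inr x, .inr (x.1, !x.2)), ?_, fun a b => ?_, fun k b => ?_⟩
  · refine (card_union_le _ _).trans (add_le_add (card_image_le.trans ?_) (card_image_le.trans ?_))
    · simp
    · simp
  · exact mem_union_left _ (mem_image.2 ⟨(a, b), mem_univ _, rfl⟩)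
  · exact mem_union_right _ (mem_image.2 ⟨(k, b), mem_univ _, rfl⟩)

theorem exists_adm : ∃ adm : Finset (Pt × Pt), adm.card < (64 + 1) ^ 2 ∧
    ∀ (c : Con) (p p' : Pt), p ≠ p' → p ∈ fl c → p' ∈ fl c → (p, p') ∈ adm := by
  obtain ⟨adm, h0, h1, h2⟩ := exists_adm0 (Fin 7) (Fin 2077)
  refine ⟨adm, ?_, fun c p p' h hp hp' => ?_⟩
  · simp only [Fintype.card_fin] at h0
    omega
  rcases c with k | j | u
  · simp only [fl, mem_insert, mem_singleton] at hp hp'
    rcases hp with rfl | rfl <;> rcases hp' with rfl | rfl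
    · exact (h rfl).elim
    · exact h2 k true
    · exact h2 k false
    · exact (h rfl).elim
  · simp only [fl, mem_map, Function.Embedding.coeFn_mk] at hp hp'
    obtain ⟨a, -, rfl⟩ := hp
    obtain ⟨b, -, rfl⟩ := hp'
    exact h1 a b
  · simp only [fl, mem_map, Function.Embedding.coeFn_mk] at hp hp'
    obtain ⟨a, -, rfl⟩ := hp
    obtain ⟨b, -, rfl⟩ := hp'
    exact h1 a b

theorem card_sigma_filter {T : Type} [Fintype T] [DecidableEq T] (cnt : Bool × T → ℕ) (y : Bool)
    (P : T → Prop) [DecidablePred P] :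
    (univ.filter fun v : (Σ x, Fin (cnt x)) => v.1.1 = y ∧ P v.1.2).card =
      ∑ τ ∈ univ.filter P, cnt (y, τ) := by
  have : (univ.filter fun v : (Σ x, Fin (cnt x)) => v.1.1 = y ∧ P v.1.2) =
      (({y} : Finset Bool) ×ˢ univ.filter P).sigma fun _ => univ := by
    ext ⟨⟨a, b⟩, i⟩
    simp only [mem_filter, mem_univ, true_and, mem_sigma, mem_product, mem_singleton, and_true]
  rw [this, card_sigma, sum_product, sum_singleton]
  simp

theorem cast_parity {G : Type} [Group G] (n : ℕ) :
    (n : MonoidAlgebra (ZMod 2) G) = if Odd n then 1 else 0 := by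
  rw [← map_natCast (algebraMap (ZMod 2) (MonoidAlgebra (ZMod 2) G))]
  split_ifs with h
  · rw [ZMod.natCast_eq_one_iff_odd.2 h, map_one]
  · rw [ZMod.natCast_eq_zero_iff_even.2 (Nat.not_odd_iff_even.1 h), map_zero]

/-- the common example -/
theorem main (h1 : T1) (h3 : T3) (h4 : T4) (h5 : T5) :
    ∃ (G : Type) (_ : Group G), Group.IsFinitelyPresented G ∧ (∀ g : G, IsOfFinOrder g → g = 1) ∧
      Crest.Topology.HasFiniteClassifyingComplex G 2 ∧
      ∃ a b c : MonoidAlgebra (ZMod 2) G, a * b = 1 ∧ c * b = 0 ∧ c ≠ 0 := by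
  obtain ⟨Λ, _, _, ln, ⟨l₀⟩, hl1, hl2, hl3⟩ := exists_plane
  obtain ⟨adm, adm_card, mem_adm⟩ := exists_adm
  obtain ⟨L, η, hL, hη, H5⟩ := h5 Pt Bool 64 (Fintype.card (Pt × Bool)) 65 adm (by norm_num)
    adm_card
  obtain ⟨K, B, H4⟩ := h4 L η hL hη
  obtain ⟨g, n₀, hg, H5⟩ := H5 K B
  obtain ⟨t, ht0, ht1, ht2⟩ : ∃ t : ℕ, 0 < t ∧ n₀ ≤ 4 * t + 1 ∧ 4 * t + 1 ≤ n₀ + 65 :=
    ⟨n₀ / 4 + 1, by omega, by omega, by omega⟩
  let cnt : Bool × (Λ ⊕ Con) → ℕ := fun x => Sum.elim (fun _ => mult t x.1) (cntC t x.1) x.2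
  let V : Type := Σ x, Fin (cnt x)
  let pts : Λ ⊕ Con → Finset Pt := Sum.elim ln fl
  let link : V → Finset (Pt × Bool) := fun v => (pts v.1.2).image fun p => (p, v.1.2.isLeft)
  let lay : V → Bool := fun v => v.1.1
  let side : V → Bool := fun v => v.1.2.isLeft
  have hlink : ∀ (v : V) p b, (p, b) ∈ link v ↔ p ∈ pts v.1.2 ∧ v.1.2.isLeft = b := by
    intro v p b
    simp only [link, mem_image, Prod.mk.injEq]
    exact ⟨fun ⟨a, h, e1, e2⟩ => ⟨e1 ▸ h, e2⟩, fun ⟨h, e⟩ => ⟨p, h, rfl, e⟩⟩
  let r : V := ⟨(false, .inl l₀), ⟨0, by simp [cnt, mult, ht0]⟩⟩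
  have hslot : ∀ y d, (slot link lay y d).card = 65 * mult t y := by
    rintro y ⟨p, b⟩
    have := card_sigma_filter cnt y fun τ => p ∈ pts τ ∧ τ.isLeft = b
    simp only [slot, hlink, lay]
    refine this.trans ?_
    rw [sum_filter, Fintype.sum_sum_type]
    cases b
    · simpa [pts, cnt, sum_filter] using fl_sum t y p
    · simp [pts, cnt, ← sum_filter, hl1]
  obtain ⟨E, hE, hF, hP⟩ := H5 (4 * t + 1) V link lay side r ht1 ht2
    (fun v d hd => ((hlink v d.1 d.2).1 hd).2.symm) rfl (fun v => card_le_univ _)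
    (fun y j => by rw [hslot, hslot])
    (fun y d => by rw [hslot]; cases y <;> simp [mult] <;> omega)
    (fun y d => by rw [hslot]; cases y <;> simp [mult])
    (fun y p p' h => by
      have := card_sigma_filter cnt y fun τ =>
        (p ∈ pts τ ∧ τ.isLeft = true) ∧ (p' ∈ pts τ ∧ τ.isLeft = true)
      simp only [hlink, lay]
      refine this.trans_le ?_
      rw [sum_filter, Fintype.sum_sum_type]
      have h2 := hl3 p p' h
      have h4 : mult t y ≤ 4 * t + 1 := by cases y <;> simp [mult]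
      simp only [pts, cnt, Sum.elim_inl, Sum.isLeft_inl, and_true, Sum.isLeft_inr,
        Bool.false_eq_true, and_false, if_false, sum_const_zero, add_zero, ← sum_filter, sum_const,
        smul_eq_mul]
      nlinarith)
    (fun v p p' h hp hp' => by
      rw [hlink] at hp hp'
      obtain ⟨⟨y, τ | c⟩, i⟩ := v
      · simp at hp
      · exact mem_adm c p p' h hp.1 hp'.1)
  have hRD : IsEmpty (RD E r) :=
    ⟨fun D => by
      obtain ⟨x⟩ := H4 g Pt V E r hg hE.fold hE.gir D
      exact hP.false x⟩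
  obtain ⟨hA, hC⟩ := h3 Pt V E r hE.fold hRD
  have : Finite (rels (relE E)) := Set.finite_range _
  refine ⟨Grp (relE E), inferInstance, inferInstance, t2 _ _ _ hA,
    h1 _ _ (relE E) (Sum.elim (fun _ => 1) fun v => if side v then 1 else 2) ?_ ?_ hA, ?_⟩
  · rintro (p | v)
    · simp
    · simp only [Sum.elim_inr]; split_ifs <;> simp
  · rintro ⟨⟨v, p, c⟩, he⟩
    have := hE.valid _ he
    have e1 : side v = true := ((hlink _ _ _).1 this.2.1).2
    have e2 : side c = false := ((hlink _ _ _).1 this.2.2).2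
    simp [relE, e1, e2]
  · let y : V → Grp (relE E) := fun v => PresentedGroup.of (.inr v)
    let z : Pt → Grp (relE E) := fun p => PresentedGroup.of (.inl p)
    let ι := MonoidAlgebra.of (ZMod 2) (Grp (relE E))
    have key := fun X X' => hand_main hE hF y z
      (fun v p c he => Crest.Agent.Lead.ZT.of_rel (rel := relE E) ⟨(v, p, c), he⟩) ι X X'
      (fun v => side v = true) (fun v => v.1.2 = .inr (.inr (.inr ())))
      (fun v w => by
        rw [cast_parity]
        obtain ⟨⟨a, l | c⟩, i⟩ := v <;> obtain ⟨⟨a', l' | c'⟩, i'⟩ := w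
        · have : (univ.filter fun p => (p, true) ∈ link ⟨⟨a, .inl l⟩, i⟩ ∧
              (p, true) ∈ link ⟨⟨a', .inl l'⟩, i'⟩) = ln l ∩ ln l' := by
            ext p; simp [hlink, pts]
          rw [this]
          simp [hl2, side]
        all_goals simp [hlink, side])
      (fun v w => by
        rw [cast_parity]
        obtain ⟨⟨a, l | c⟩, i⟩ := v <;> obtain ⟨⟨a', l' | c'⟩, i'⟩ := w
        · simp [hlink]
        · simp [hlink]
        · simp [hlink]
        · have : (univ.filter fun p => (p, false) ∈ link ⟨⟨a, .inr c⟩, i⟩ ∧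
              (p, false) ∈ link ⟨⟨a', .inr c'⟩, i'⟩) = fl c ∩ fl c' := by
            ext p; simp [hlink, pts]
          rw [this]
          simp [fl_inter])
    let o : V := ⟨(true, .inr (.inr (.inr ()))), ⟨0, by simp [cnt, cntC]⟩⟩
    have hA1 : (univ.filter fun v : V => lay v = true ∧ v.1.2 = .inr (.inr (.inr ()))) = {o} := by
      have hc := card_sigma_filter cnt true fun τ => τ = .inr (.inr (.inr ()))
      simp only [filter_eq', mem_univ, if_true, sum_singleton] at hc
      obtain ⟨a, ha⟩ := card_eq_one.1 hc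
      have ho : o ∈ ({a} : Finset V) := ha ▸ mem_filter.2 ⟨mem_univ _, rfl, rfl⟩
      rw [mem_singleton.1 ho]
      exact ha
    have hC0 : (univ.filter fun v : V => lay v = false ∧ v.1.2 = .inr (.inr (.inr ()))) = ∅ := by
      rw [← card_eq_zero]
      refine (card_sigma_filter cnt false fun τ => τ = .inr (.inr (.inr ()))).trans ?_
      simp [filter_eq', cnt, cntC]
    refine ⟨_, _, _, (key true true).trans ?_, (key false true).trans ?_, fun h0 => ?_⟩
    · rw [hA1, sum_singleton, sum_singleton, ← map_mul, mul_inv_cancel, map_one]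
    · rw [hC0, sum_empty, zero_mul]
    · have h6 := congrArg (fun x : MonoidAlgebra (ZMod 2) (Grp (relE E)) => x.coeff (y r)) h0
      simp only [MonoidAlgebra.coeff_sum, Finsupp.finsetSum_apply, MonoidAlgebra.coeff_zero,
        Finsupp.zero_apply] at h6
      rw [sum_eq_single r] at h6
      · simp [ι] at h6
      · intro v _ hv
        have : y v ≠ y r := fun e => hv (hC v e.symm)
        simp [ι, this]
      · intro hr
        exact (hr (by simp [r, lay, side])).elim

theorem s0267 (h1 : T1) (h3 : T3) (h4 : T4) (h5 : T5) :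
    ∃ (G : Type) (_ : Group G), Group.IsFinitelyPresented G ∧ (∀ g : G, IsOfFinOrder g → g = 1) ∧
      Crest.Topology.HasFiniteClassifyingComplex G 2 ∧
      ∃ a b : MonoidAlgebra (ZMod 2) G, a ≠ 0 ∧ b ≠ 0 ∧ a * b = 0 := by
  obtain ⟨G, _, k1, k2, k3, a, b, c, e1, e2, e3⟩ := main h1 h3 h4 h5
  refine ⟨G, _, k1, k2, k3, c, b, e3, ?_, e2⟩
  rintro rfl
  simp at e1

theorem s0274 (h1 : T1) (h3 : T3) (h4 : T4) (h5 : T5) :
    ∃ (G : Type) (_ : Group G), Group.IsFinitelyPresented G ∧ (∀ g : G, IsOfFinOrder g → g = 1) ∧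
      Crest.Topology.HasFiniteClassifyingComplex G 2 ∧
      ∃ a b : MonoidAlgebra (ZMod 2) G, a * b = 1 ∧ b * a ≠ 1 := by
  obtain ⟨G, _, k1, k2, k3, a, b, c, e1, e2, e3⟩ := main h1 h3 h4 h5
  refine ⟨G, _, k1, k2, k3, a, b, e1, fun e => e3 ?_⟩
  rw [← mul_one c, ← e, ← mul_assoc, e2, zero_mul]

end Crest.Agent.H5.ZD
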