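import Crest.Agent.H9.ZD0

/-! Task T6, part a: the projective plane of order `64`, the handshake identity. -/

namespace Crest.Agent.H5.ZD

open Finset Crest.Agent.H6.SC

set_option linter.unusedSectionVars false

/-- the points: seven special points and `2077` pairs -/
abbrev Pt : Type := Fin 7 ⊕ (Fin 2077 × Bool)

theorem plane_of (P L : Type) [Membership P L] [Configuration.ProjectivePlane P L] [Fintype P]
    [Fintype L] (hP : Fintype.card P = 4161) : ∃ ln : L → Finset Pt, Nonempty L ∧
      (∀ p, (univ.filter fun l => p ∈ ln l).card = 65) ∧ (∀ l l', Odd (ln l ∩ ln l').card) ∧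
      ∀ p p', p ≠ p' → (univ.filter fun l => p ∈ ln l ∧ p' ∈ ln l).card ≤ 1 := by
  classical
  have ho : Configuration.ProjectivePlane.order P L = 64 := by
    have := Configuration.ProjectivePlane.card_points P L
    rw [hP] at this
    nlinarith
  have hc : Fintype.card Pt = Fintype.card P := by simp [hP]
  let e : Pt ≃ P := Fintype.equivOfCardEq hc
  refine ⟨fun l => univ.filter fun p => e p ∈ l, ?_, fun p => ?_, fun l l' => ?_, fun p p' h => ?_⟩
  · rw [← Fintype.card_pos_iff, ← Configuration.ProjectivePlane.card_points_eq_card_lines P L, hP]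
    norm_num
  · have := Configuration.ProjectivePlane.lineCount_eq L (e p)
    rw [ho, Configuration.lineCount, Nat.card_eq_fintype_card, Fintype.card_subtype] at this
    simpa using this
  · by_cases h : l = l'
    · subst h
      have := Configuration.ProjectivePlane.pointCount_eq P l
      rw [ho, Configuration.pointCount, Nat.card_eq_fintype_card, Fintype.card_subtype] at this
      have h2 : (univ.filter fun p => e p ∈ l).card = (univ.filter fun p : P => p ∈ l).card := by
        refine card_bij (fun p _ => e p) (by simp) (by simp) fun q hq => ⟨e.symm q, ?_, by simp⟩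
        simpa using hq
      rw [inter_self, h2, this]
      decide
    · obtain ⟨q, hq, hu⟩ := Configuration.HasPoints.existsUnique_point P L l l' h
      have : (univ.filter fun p => e p ∈ l) ∩ (univ.filter fun p => e p ∈ l') = {e.symm q} := by
        ext p
        simp only [mem_inter, mem_filter, mem_univ, true_and, mem_singleton]
        constructor
        · intro hp
          rw [← hu _ hp, Equiv.symm_apply_apply]
        · rintro rfl
          simpa using hq
      rw [this]
      simp
  · rw [card_le_one]
    intro l hl l' hl'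
    simp only [mem_filter, mem_univ, true_and] at hl hl'
    exact (Configuration.Nondegenerate.eq_or_eq hl.1 hl.2 hl'.1 hl'.2).resolve_left
      fun k => h (e.injective k)

theorem exists_plane : ∃ (L : Type) (_ : Fintype L) (_ : DecidableEq L) (ln : L → Finset Pt),
    Nonempty L ∧
      (∀ p, (univ.filter fun l => p ∈ ln l).card = 65) ∧ (∀ l l', Odd (ln l ∩ ln l').card) ∧
      ∀ p p', p ≠ p' → (univ.filter fun l => p ∈ ln l ∧ p' ∈ ln l).card ≤ 1 := by
  classical
  have : Fact (Nat.Prime 2) := ⟨Nat.prime_two⟩
  let K := GaloisField 2 6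
  let P := Projectivization K (Fin 3 → K)
  have : Fintype P := Fintype.ofFinite P
  have hP : Fintype.card P = 4161 := by
    rw [← Nat.card_eq_fintype_card,
      Projectivization.card_of_finrank K (Fin 3 → K) (n := 3) (by simp), GaloisField.card 2 6 (by norm_num)]
    decide
  obtain ⟨ln, h⟩ := plane_of P P hP
  exact ⟨P, inferInstance, inferInstance, ln, h⟩

section hand
variable {I V Y : Type} [Fintype I] [DecidableEq I] [Fintype V] [DecidableEq V] [DecidableEq Y]
  {link : V → Finset (I × Bool)} {lay : V → Y} {A : Type} [Ring A]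

theorem handshake (b : Bool) (X X' : Y) (Q : V → Prop) [DecidablePred Q]
    (h : ∀ v w, (((univ.filter fun p => (p, b) ∈ link v ∧ (p, b) ∈ link w).card : ℕ) : A) =
      if Q v ∧ Q w then 1 else 0) (f f' : V → A) :
    ∑ p, (∑ v ∈ slot link lay X (p, b), f v) * (∑ w ∈ slot link lay X' (p, b), f' w) =
      (∑ v ∈ univ.filter fun v => lay v = X ∧ Q v, f v) *
        ∑ w ∈ univ.filter fun w => lay w = X' ∧ Q w, f' w := by
  simp only [slot, sum_filter, sum_mul_sum]
  rw [sum_comm]
  refine sum_congr rfl fun v _ => ?_
  rw [sum_comm]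
  refine sum_congr rfl fun w _ => ?_
  have h1 := h v w
  rw [card_filter] at h1
  push_cast at h1
  by_cases hv : lay v = X
  · by_cases hw : lay w = X'
    · simp only [hv, hw, true_and]
      have : ∀ p, (if (p, b) ∈ link v then f v else 0) * (if (p, b) ∈ link w then f' w else 0) =
          (if (p, b) ∈ link v ∧ (p, b) ∈ link w then 1 else 0) * (f v * f' w) := by
        intro p
        by_cases h2 : (p, b) ∈ link v <;> by_cases h3 : (p, b) ∈ link w <;> simp [h2, h3]
      simp only [this, ← sum_mul, h1]
      by_cases h2 : Q v <;> by_cases h3 : Q w <;> simp [h2, h3]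
    · simp [hw]
  · simp [hv]

omit [Fintype I] in
theorem slot_sum {g : ℕ} {E : Finset (V × I × V)} (hE : OK link lay g E) (hF : Full link E)
    {M : Type} [AddCommMonoid M] (X : Y) (p : I) (F F' : V → M)
    (h : ∀ v c, (v, p, c) ∈ E → F v = F' c) :
    ∑ v ∈ slot link lay X (p, true), F v = ∑ c ∈ slot link lay X (p, false), F' c := by
  have hex : ∀ v ∈ slot link lay X (p, true), ∃ c, (v, p, c) ∈ E := by
    intro v hv
    simp only [slot, mem_filter, mem_univ, true_and] at hv
    exact hF v _ hv.2
  choose φ hφ using hex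
  refine sum_bij φ (fun v hv => ?_) (fun v hv v' hv' e => ?_) (fun c hc => ?_)
    fun v hv => h _ _ (hφ v hv)
  · have := hE.valid _ (hφ v hv)
    simp only [slot, mem_filter, mem_univ, true_and] at hv ⊢
    exact ⟨this.1.symm.trans hv.1, this.2.2⟩
  · have h1 := hφ v hv
    have h2 := hφ v' hv'
    rw [← e] at h2
    exact hE.fold (φ v hv) (p, false) v v' h1 h2
  · simp only [slot, mem_filter, mem_univ, true_and] at hc
    obtain ⟨v, hv⟩ := hF c _ hc.2
    have hv' : (v, p, c) ∈ E := hv
    have := hE.valid _ hv'
    have hm : v ∈ slot link lay X (p, true) := by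
      simp only [slot, mem_filter, mem_univ, true_and]
      exact ⟨this.1.trans hc.1, this.2.1⟩
    exact ⟨v, hm, hE.fold v (p, true) _ _ (hφ v hm) hv'⟩

/-- the handshake identity in a group algebra -/
theorem hand_main {g : ℕ} {E : Finset (V × I × V)} (hE : OK link lay g E) (hF : Full link E)
    {G : Type} [Group G] (y : V → G) (z : I → G) (hyz : ∀ v p c, (v, p, c) ∈ E → y v * z p = y c)
    (ι : G →* A) (X X' : Y) (Q Q' : V → Prop) [DecidablePred Q] [DecidablePred Q']
    (h : ∀ v w, (((univ.filter fun p => (p, true) ∈ link v ∧ (p, true) ∈ link w).card : ℕ) : A) =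
      if Q v ∧ Q w then 1 else 0)
    (h' : ∀ v w, (((univ.filter fun p => (p, false) ∈ link v ∧ (p, false) ∈ link w).card : ℕ) : A) =
      if Q' v ∧ Q' w then 1 else 0) :
    (∑ v ∈ univ.filter fun v => lay v = X ∧ Q v, ι (y v)) *
        ∑ w ∈ univ.filter fun w => lay w = X' ∧ Q w, ι (y w)⁻¹ =
      (∑ v ∈ univ.filter fun v => lay v = X ∧ Q' v, ι (y v)) *
        ∑ w ∈ univ.filter fun w => lay w = X' ∧ Q' w, ι (y w)⁻¹ := by
  rw [← handshake true X X' Q h, ← handshake false X X' Q' h']
  refine sum_congr rfl fun p _ => ?_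
  rw [← slot_sum hE hF X p (fun v => ι (y v) * ι (z p)) (fun c => ι (y c))
      fun v c e => by rw [← map_mul, hyz v p c e],
    ← slot_sum hE hF X' p (fun v => ι (z p)⁻¹ * ι (y v)⁻¹) (fun c => ι (y c)⁻¹)
      fun v c e => by rw [← map_mul, ← hyz v p c e, mul_inv_rev],
    ← sum_mul, ← mul_sum, mul_assoc, ← mul_assoc (ι (z p)), ← map_mul, mul_inv_cancel, map_one,
    one_mul]

end hand

end Crest.Agent.H5.ZD
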